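import Vale.Agent.P302.DataA

/-!
P302: there is a bin packing instance with `OPT - LP ≥ 275/228 = 1.20614…`.
-/

namespace Vale.Agent.Results.P302.GapA

open Vale.Agent.P302

theorem result : ∃ I : List ℚ, (∀ a ∈ I, 0 < a ∧ a ≤ 1) ∧
    OPT I ≥ 9 ∧ LP I ≤ 9 - 275 / 228 := by
  have hle : ∀ a ∈ inst 17640 DataA.sizes, 0 < a ∧ a ≤ 1 := by
    intro a ha
    unfold inst at ha
    rw [List.mem_map] at ha
    obtain ⟨x, hx, rfl⟩ := ha
    obtain ⟨h1, h2⟩ := DataA.sizes_pos x hx
    constructor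
    · have : (0 : ℚ) < x := by exact_mod_cast h1
      positivity
    · rw [div_le_one (by norm_num)]
      exact_mod_cast h2
  refine ⟨inst 17640 DataA.sizes, hle, ?_, ?_⟩
  · exact lt_OPT _ (fun a ha => (hle a ha).2) DataA.not_packable
  · refine DataA.LP_le.trans ?_
    norm_num

end Vale.Agent.Results.P302.GapA
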