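import Vale.Agent.P302.DataCMain

/-!
P302: for every `k ≥ 18` there is a bin packing instance with `OPT = k` and `OPT - LP ≥ 24/19`.
-/

namespace Vale.Agent.Results.P302.GapC

open Vale.Agent.P302

theorem result : ∀ k : ℕ, 18 ≤ k → ∃ I : List ℚ, (∀ a ∈ I, 0 < a ∧ a ≤ 1) ∧
    OPT I = k ∧ (OPT I : ℝ) - LP I ≥ 24 / 19 := by
  intro k hk
  obtain ⟨m, rfl⟩ := Nat.exists_eq_add_of_le hk
  obtain ⟨I, h1, h2, h3⟩ := DataC.main m
  refine ⟨I, h1, h2, ?_⟩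
  rw [h2]
  push_cast
  linarith

end Vale.Agent.Results.P302.GapC
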